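import Vale.Agent.P281.H603.C.Ctx
import Vale.Agent.P281.H969.E.DegE

/-!
# P281, class C (helper389): row C5 (DegCStmt), the rank of the Gauss maps
-/

open Set Filter Metric MeasureTheory Vale.Agent.P281 Vale.Agent.P281.H713
open scoped Topology ContDiff Manifold ComplexConjugate

set_option linter.unusedSectionVars false

noncomputable section

namespace Vale.Agent.P281.H389.C

open Vale.Agent.P281.H64.TK Vale.Agent.P281.H64.TK.TE Vale.Agent.P281.H603.C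
open Vale.Agent.P281.H64 (Cm Mark)
open Vale.Agent.P281.H64.Gen (IsSmallSet)
open Vale.Agent.P281.H603.TE

section
variable {p d : ℕ} {Z Y : Type} [TopologicalSpace Z] [T2Space Z] [ChartedSpace (Cm (p + d)) Z]
  [IsManifold 𝓘(ℂ, Cm (p + d)) ω Z] [TopologicalSpace Y] [T2Space Y] [ChartedSpace (Cm p) Y]
  [IsManifold 𝓘(ℂ, Cm p) ω Y]

/-- `NDegE` may be checked in the local data. -/
theorem nDegE_dloc {f : Z → Y} {C : Ctx (p := p) (d := d) f} {m n : ℕ}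
    {B : Matrix (Fin n) (Fin n) ℝ} {g : ℕ} (L : DLocC C m B g) (r : ℕ) {t : Cm p} (ht : t ∈ L.T') :
    NDegE (p + d) p d m r f (L.χ.symm t) ↔ ∃ i, ∃ z ∈ ball (0 : Cm d) 3,
      (sub (L.𝓕.at t (L.hT' ht)) (core L.Γ m)).GaussAt r i z :=
  H969.E.nDegE_iff L.model (L.hT' ht)

/-- The locus where `NDegE` fails is analytic in the charts of the local data. -/
theorem locAnalytic_dloc {f : Z → Y} {C : Ctx (p := p) (d := d) f} {m n : ℕ}
    {B : Matrix (Fin n) (Fin n) ℝ} {g : ℕ} (L : DLocC C m B g) (r : ℕ) {y₀ : Y}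
    (hs : y₀ ∈ L.χ.source) (h0 : L.χ y₀ ∈ L.T') :
    H969.K.LocAnalytic (p := p) {y | ¬ NDegE (p + d) p d m r f y} y₀ := by
  obtain ⟨ι, P, hP, hPD⟩ := H969.K.gauss_analytic (fsub L.𝓕 (core L.Γ m)) L.hT' L.bas L.holF r
  refine ⟨ι, L.χ.source ∩ L.χ ⁻¹' L.T', fun a y => P a (L.χ y),
    L.χ.continuousOn.isOpen_inter_preimage L.χ.open_source L.isOpen', ⟨hs, h0⟩, ?_, ?_⟩
  · rintro a y ⟨hys, hy⟩
    have h1 : ContMDiffAt 𝓘(ℂ, Cm p) 𝓘(ℂ, Cm p) ω L.χ y :=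
      contMDiffAt_of_mem_maximalAtlas (IsManifold.subset_maximalAtlas L.model.atlas) hys
    have h2 : ContMDiffAt 𝓘(ℂ, Cm p) 𝓘(ℂ, ℂ) ω (P a) (L.χ y) :=
      ContDiffAt.contMDiffAt (hP a _ hy).contDiffAt
    exact ContMDiffAt.comp y h2 h1
  · rintro y ⟨hys, hy⟩
    have h1 := nDegE_dloc L r hy
    rw [L.χ.left_inv hys] at h1
    rw [mem_ofPred_eq, h1]
    exact hPD _ hy

end

/-- **C5** -/
theorem degC (hD : DGlobCStmt) : DegCStmt := by
  intro p d m r Z Y _ _ _ _ _ _ _ _ _ f C S S₁ hd hC hsurj hv hG hS hS₁ hne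
  have hYc : CompactSpace Y := by
    have h1 : Function.Surjective (C.v ∘ C.f₁) := hC.mv.surj.comp hsurj
    rw [← isCompact_univ_iff, ← h1.range_eq]
    exact isCompact_range (hC.hv.continuous.comp hC.hf₁.continuous)
  have hYs : SecondCountableTopology Y := ChartedSpace.secondCountable_of_sigmaCompact (Cm p) Y
  obtain ⟨y₁, hy₁, hn₁⟩ := hne
  obtain ⟨n, g, hn, B, hL⟩ := hD p d m Z Y f C S S₁ hd hC hG ⟨y₁, hy₁⟩
  refine ⟨S ∪ {y | ¬ NDegE (p + d) p d m r f y}, subset_union_left,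
    H969.K.small_of_local hS hG.conn (fun y₀ hy₀ => ?_) ⟨y₁, hy₁, fun h => h hn₁⟩, ?_⟩
  · obtain ⟨L, hs, h0, -⟩ := hL y₀ hy₀
    exact locAnalytic_dloc L r hs h0
  · intro y hy
    rw [mem_union, not_or] at hy
    exact not_not.1 hy.2

end Vale.Agent.P281.H389.C
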