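import Vale.Agent.P281.H603.C.AlbB
import Vale.Agent.P281.H303.UD.Dich

/-!
# P281, class C (helper389): row CI (being immersed is open; the dichotomy), ports of H83/ImmOpen.lean
and H303/UD/Dich.lean
-/

open Set Filter Metric MeasureTheory Vale.Agent.P281 Vale.Agent.P281.H713 Vale.Agent.P272.K
open scoped Topology ContDiff Manifold ComplexConjugate

set_option linter.unusedSectionVars false

noncomputable section

namespace Vale.Agent.P281.H389.C

open Vale.Agent.P281.H64 (Mark)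
open Vale.Agent.P281.H64.Thin (IsThinSet)
open Vale.Agent.P281.H64.Gen (IsSmallSet)
open Vale.Agent.P281.H64.TK Vale.Agent.P281.H603.K Vale.Agent.P281.H864.K
open Vale.Agent.P281.H603.TE Vale.Agent.P281.H603.C
open Vale.Agent.P281.H864.Toc (IsoHol)
open Vale.Agent.P281.H83 (IsImmS immS_iso immS_open)
open Vale.Agent.P281.H303.UD (IsImmE anIn_noinj thin_atlas)
open Vale.Agent.P281.H150.Gen (AnIn SThin)
open Vale.Agent.P281.H383.Gen (GoodVal core')

attribute [local instance] ccs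

/-- comparison, in the other letters -/
theorem isoHolH {d : ℕ} {E Γ E' Γ' : Type} [TopologicalSpace E] [Group Γ] [MulAction Γ E]
    [TopologicalSpace E'] [Group Γ'] [MulAction Γ' E'] {S : Sheets d E Γ} {S' : Sheets d E' Γ'}
    {τ : E ≃ₜ E'} {ρ : Γ ≃* Γ'} (h : CmpH S S' τ ρ) : IsoHol S S' τ := by
  intro i j z hz z' hz' γ he
  have key : ∀ e : E', τ.symm (γ • e) = ρ.symm γ • τ.symm e := fun e => h.symm_smul γ e
  have he' : S.σ i z = ρ.symm γ • τ.symm (S'.σ j z') := by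
    rw [← key, ← he, τ.symm_apply_apply]
  obtain ⟨θ, h1, h2, h3, h4⟩ := h.hol i j z hz z' hz' (ρ.symm γ) he'
  refine ⟨θ, h1, h2, h3, ?_⟩
  filter_upwards [h4] with v hv
  have hv' : S.σ i v = ρ.symm γ • τ.symm (S'.σ j (θ v)) := hv
  rw [hv', ← key, τ.apply_symm_apply]

variable {p d : ℕ} {Z Y : Type} [TopologicalSpace Z] [T2Space Z] [ChartedSpace (Cm (p + d)) Z]
  [IsManifold 𝓘(ℂ, Cm (p + d)) ω Z] [TopologicalSpace Y] [T2Space Y] [ChartedSpace (Cm p) Y]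
  [IsManifold 𝓘(ℂ, Cm p) ω Y] {f : Z → Y} {C : Ctx (p := p) (d := d) f} {m n g : ℕ}
  {B : Matrix (Fin n) (Fin n) ℝ}

/-- `IsImmE` may be checked in the local data -/
theorem immS_of (L : DLocC C m B g) {t : Cm p} (ht : t ∈ L.T')
    (h : IsImmE (p + d) p d m f (L.χ.symm t)) :
    IsImmS (sub (L.𝓕.at t (L.hT' ht)) (core L.Γ m)) := by
  obtain ⟨E', Γ', _, _, _, _, _, _, 𝓕', q', χ', t', ht', hfin, hM', hy', hT⟩ := h
  obtain ⟨τ, ρ, -, -, hc⟩ := compareC L.model hM' (L.hT' ht) ht' hy'.symm m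
  exact immS_iso (ρ := res ρ fun _ => map_core ρ m) hc.eqv (isoHolH hc) fun j v hv =>
    hT j v (ball13 (by simpa using hv))

theorem of_immS (L : DLocC C m B g) {t : Cm p} (ht : t ∈ L.T')
    (h : IsImmS (sub (L.𝓕.at t (L.hT' ht)) (core L.Γ m))) :
    IsImmE (p + d) p d m f (L.χ.symm t) :=
  ⟨L.E, L.Γ, inferInstance, inferInstance, inferInstance, inferInstance, inferInstance,
    inferInstance, L.𝓕, L.q, L.χ, t, L.hT' ht, L.fin, L.model, rfl, h⟩

/-- `IsImmE` is open, in the local data -/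
theorem immOpen_dloc (L : DLocC C m B g) {y : Y} (h1 : y ∈ L.χ.source) (h2 : L.χ y ∈ L.T')
    (h : IsImmE (p + d) p d m f y) : ∀ᶠ y' in 𝓝 y, IsImmE (p + d) p d m f y' := by
  rw [← L.χ.left_inv h1] at h
  have h4 := immS_of L h2 h
  have h5 := immS_open (fsub L.𝓕 (core L.Γ m)) L.hT' L.bas L.holF h2
    (c2 (sub (L.𝓕.at (L.χ y) (L.hT' h2)) (core L.Γ m))) h4
  have h6 : ∀ᶠ y' in 𝓝 y, y' ∈ L.χ.source := L.χ.open_source.mem_nhds h1
  have h7 : ∀ᶠ y' in 𝓝 y, L.χ y' ∈ L.T' :=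
    (L.χ.continuousAt h1).eventually (L.isOpen'.mem_nhds h2)
  have h8 := (L.χ.continuousAt h1).eventually h5
  filter_upwards [h6, h7, h8] with y' a1 a2 a3
  have h9 := of_immS L a2 (a3 a2)
  rwa [L.χ.left_inv a1] at h9

/-- **CI, 1** -/
theorem immOpenC (hD : DGlobCStmt) (hd : 0 < d) (hC : C.Ok) {S : Set Y} {S₁ : Set C.Y₁}
    (hG : C.Good S S₁) : ∀ y ∉ S, IsImmE (p + d) p d m f y →
      ∀ᶠ y' in 𝓝 y, IsImmE (p + d) p d m f y' := by
  intro y hy h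
  obtain ⟨n, g, hn, B, hL⟩ := hD p d m Z Y f C S S₁ hd hC hG ⟨y, hy⟩
  obtain ⟨L, h1, h2, -⟩ := hL y hy
  exact immOpen_dloc L h1 h2 h

/-- `F` in the sheets of the coverings -/
def HC (L : DLocC C m B g) (i : Fin (fsub L.𝓕 (core L.Γ m)).N) (q : Cm p × Cm d) :
    EuclideanSpace ℂ (Fin g) :=
  WithLp.toLp 2 (L.F q.1 ((fsub L.𝓕 (core L.Γ m)).σ i q.1 q.2))

theorem HC_hol (L : DLocC C m B g) (i : Fin (fsub L.𝓕 (core L.Γ m)).N)
    {t : Cm p} (ht : t ∈ L.T') {z : Cm d} (hz : z ∈ ball (0 : Cm d) 3) :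
    AnalyticAt ℂ (HC L i) (t, z) := by
  have h6 : ContDiffAt ℂ ω (fun q : Cm p × Cm d =>
      L.F q.1 ((fsub L.𝓕 (core L.Γ m)).σ i q.1 q.2)) (t, z) := by
    rw [contDiffAt_pi]
    intro j
    exact (L.holF i t ht z hz j).contDiffAt
  exact ((PiLp.continuousLinearEquiv 2 ℂ (fun _ : Fin g => ℂ)).symm.contDiff.contDiffAt.comp _
    h6).analyticAt

/-- `IsImmE` in the local data -/
theorem immE_iffC (L : DLocC C m B g) {t : Cm p} (ht : t ∈ L.T') :
    ¬ IsImmE (p + d) p d m f (L.χ.symm t) ↔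
      ∃ i, ∃ z ∈ ball (0 : Cm d) 3, ∃ ξ : Cm d, fderiv ℂ (HC L i) (t, z) (0, ξ) = 0 ∧ ξ ≠ 0 := by
  have hder : ∀ i, ∀ z ∈ ball (0 : Cm d) 3, HasFDerivAt (fun z : Cm d => HC L i (t, z))
      ((fderiv ℂ (HC L i) (t, z)).comp (ContinuousLinearMap.inr ℂ (Cm p) (Cm d))) z :=
    fun i z hz =>
      (HC_hol L i ht hz).differentiableAt.hasFDerivAt.comp z (hasFDerivAt_prodMk_right t z)
  constructor
  · intro h
    by_contra hcon
    push Not at hcon
    apply h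
    refine of_immS L ht ?_
    intro i z hz ξ hξ
    have h1 : fderiv ℂ (HC L i) (t, z) (0, ξ) ≠ 0 := fun h0 => hξ (hcon i z hz ξ h0)
    have h2 : ∃ j, (fderiv ℂ (HC L i) (t, z) (0, ξ)) j ≠ 0 := by
      by_contra hc
      push Not at hc
      exact h1 (PiLp.ext fun j => by rw [hc j]; rfl)
    obtain ⟨j, hj⟩ := h2
    refine ⟨fun e => L.F t e j, _, (L.bas t ht).add j, ?_⟩
    have h3 : HasFDerivAt (fun z : Cm d => EuclideanSpace.proj (𝕜 := ℂ) j (HC L i (t, z)))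
        ((EuclideanSpace.proj (𝕜 := ℂ) j).comp ((fderiv ℂ (HC L i) (t, z)).comp
          (ContinuousLinearMap.inr ℂ (Cm p) (Cm d)))) z :=
      (EuclideanSpace.proj (𝕜 := ℂ) j).hasFDerivAt.comp z (hder i z hz)
    have h4 : fderiv ℂ (fun z => L.F t ((sub (L.𝓕.at t (L.hT' ht)) (core L.Γ m)).σ i z) j) z =
        (EuclideanSpace.proj (𝕜 := ℂ) j).comp ((fderiv ℂ (HC L i) (t, z)).comp
          (ContinuousLinearMap.inr ℂ (Cm p) (Cm d))) := h3.fderiv
    rw [h4]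
    exact hj
  · rintro ⟨i, z, hz, ξ, h0, hne⟩ h
    have h4 := immS_of L ht h
    obtain ⟨u, b, hu, hu'⟩ := h4 i z hz ξ hne
    obtain ⟨s, b', hs⟩ := exists_lin (L.bas t ht)
      (c2 (sub (L.𝓕.at t (L.hT' ht)) (core L.Γ m))) hu
    apply hu'
    have h1 : (fun z => u ((sub (L.𝓕.at t (L.hT' ht)) (core L.Γ m)).σ i z)) =
        fun z => fnl s (HC L i (t, z)) + b' := by
      funext z
      rw [hs, HC, fnl_apply]
      rfl
    have h3 : HasFDerivAt (fun z : Cm d => fnl s (HC L i (t, z)) + b')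
        ((fnl s).comp ((fderiv ℂ (HC L i) (t, z)).comp
          (ContinuousLinearMap.inr ℂ (Cm p) (Cm d)))) z :=
      ((fnl s).hasFDerivAt.comp z (hder i z hz)).add_const b'
    rw [h1, h3.fderiv]
    show fnl s (fderiv ℂ (HC L i) (t, z) (0, ξ)) = 0
    rw [h0, map_zero]

/-- the boundary of the set of the parameters of the non immersed manifolds -/
theorem sthin_locC (L : DLocC C m B g) :
    SThin (Cm p) {t | (t ∈ L.T' ∧ ¬ IsImmE (p + d) p d m f (L.χ.symm t)) ∧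
      t ∉ interior {t | t ∈ L.T' ∧ ¬ IsImmE (p + d) p d m f (L.χ.symm t)}} := by
  set T := {t | t ∈ L.T' ∧ ¬ IsImmE (p + d) p d m f (L.χ.symm t)} with hT
  set W : Set (Cm p × Cm d) := L.T' ×ˢ ball (0 : Cm d) 3 with hW
  have hWo : IsOpen W := L.isOpen'.prod isOpen_ball
  set A : Fin (fsub L.𝓕 (core L.Γ m)).N → Set (Cm p × Cm d) := fun i =>
    {q | ∃ ξ : Cm d, fderiv ℂ (HC L i) q (0, ξ) = 0 ∧ ξ ≠ 0} with hA
  have hAn : ∀ i, AnIn W (A i) := fun i =>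
    anIn_noinj hWo fun q hq => HC_hol L i hq.1 hq.2
  have hfst : ∀ z ∈ W, AnalyticAt ℂ (Prod.fst : Cm p × Cm d → Cm p) z := fun z _ =>
    (ContinuousLinearMap.fst ℂ (Cm p) (Cm d)).analyticAt z
  have hS : ∀ i, SThin (Cm p) (Prod.fst '' {x | x ∈ A i ∩ W ∧
      x.1 ∉ GoodVal W (A i) (Prod.fst : Cm p × Cm d → Cm p)}) := fun i =>
    core' p _ (Cm p × Cm d) rfl W (A i) Prod.fst hWo hfst (hAn i)
  refine (SThin.iUnion hS).mono ?_
  rintro t ⟨⟨ht, h1⟩, h2⟩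
  obtain ⟨i, z, hz, ξ, hξ⟩ := (immE_iffC L ht).1 h1
  refine mem_iUnion.2 ⟨i, (t, z), ⟨⟨⟨ξ, hξ⟩, ht, hz⟩, fun hcon => h2 ?_⟩, rfl⟩
  refine GoodVal.mem_interior (T := T) hfst ?_ hcon
  rintro ⟨t', z'⟩ ⟨⟨ξ', hξ'⟩, ht', hz'⟩
  exact ⟨ht', (immE_iffC L ht').2 ⟨i, z', hz', ξ', hξ'⟩⟩

/-- **CI, 2 (the dichotomy)**: if one fibre has an immersed covering, then so have the general
ones. -/
theorem immDichC (hD : DGlobCStmt) [CompactSpace Y] [PreconnectedSpace Y] (hd : 0 < d)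
    (hC : C.Ok) {S : Set Y} {S₁ : Set C.Y₁} (hG : C.Good S S₁) (hS : IsSmallSet (Cm p) S)
    {y₁ : Y} (hy₁ : y₁ ∉ S) (h : IsImmE (p + d) p d m f y₁) :
    IsSmallSet (Cm p) (S ∪ {y | ¬ IsImmE (p + d) p d m f y}) := by
  obtain ⟨n, g, -, B, hL⟩ := hD p d m Z Y f C S S₁ hd hC hG ⟨y₁, hy₁⟩
  set A : Set Y := {y | y ∉ S ∧ ¬ IsImmE (p + d) p d m f y} with hA
  set O : Set Y := {y | y ∉ S ∧ IsImmE (p + d) p d m f y} with hO
  have hOo : IsOpen O := by
    rw [isOpen_iff_mem_nhds]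
    rintro y ⟨hy, hyI⟩
    filter_upwards [hS.1.isOpen_compl.mem_nhds hy, immOpenC hD hd hC hG y hy hyI] with y' h1 h2
    exact ⟨h1, h2⟩
  have : SecondCountableTopology Y :=
    ChartedSpace.secondCountable_of_sigmaCompact (Cm p) Y
  have hCS : SThin (Cm p) (A \ interior A) := by
    have h1 : SThin (Cm p) ((fun y : Y => y) '' (A \ interior A)) := by
      refine SThin.image_of_local fun y hy => ?_
      obtain ⟨L, hs, ht, -⟩ := hL y hy.1.1
      obtain ⟨H, hH, hcov⟩ := sthin_locC L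
      have h2 : L.χ y ∈ L.T' ∩ L.χ.target := ⟨ht, L.χ.map_source hs⟩
      obtain ⟨r, hr, hrT⟩ := Metric.nhds_basis_closedBall.mem_iff.1
        ((L.isOpen'.inter L.χ.open_target).mem_nhds h2)
      have h3 : ∀ᶠ y' in 𝓝 y, y' ∈ L.χ.source ∧ L.χ y' ∈ closedBall (L.χ y) r :=
        (L.χ.open_source.eventually_mem hs).and
          ((L.χ.continuousAt hs).eventually (closedBall_mem_nhds _ hr))
      refine ⟨_, h3, ?_⟩
      refine ⟨fun k => L.χ.symm '' (H k ∩ closedBall (L.χ y) r), fun k =>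
        thin_atlas L.model.atlas (isCompact_closedBall _ _) (fun t ht => (hrT ht).2) (hH k), ?_⟩
      rintro _ ⟨y', ⟨⟨⟨hy'S, hy'I⟩, hy'int⟩, hy's, hy'b⟩, rfl⟩
      have h4 : L.χ.symm (L.χ y') = y' := L.χ.left_inv hy's
      have h5 : L.χ y' ∈ {t | (t ∈ L.T' ∧ ¬ IsImmE (p + d) p d m f (L.χ.symm t)) ∧
          t ∉ interior {t | t ∈ L.T' ∧ ¬ IsImmE (p + d) p d m f (L.χ.symm t)}} := by
        refine ⟨⟨(hrT hy'b).1, by rwa [h4]⟩, fun hcon => hy'int ?_⟩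
        rw [mem_interior_iff_mem_nhds] at hcon ⊢
        filter_upwards [(L.χ.continuousAt hy's).eventually hcon,
          L.χ.open_source.eventually_mem hy's, hS.1.isOpen_compl.mem_nhds hy'S] with y'' h6 h7 h8
        refine ⟨h8, ?_⟩
        have h9 := h6.2
        rwa [L.χ.left_inv h7] at h9
      obtain ⟨k, hk⟩ := mem_iUnion.1 (hcov h5)
      exact mem_iUnion.2 ⟨k, L.χ y', ⟨hk, hy'b⟩, h4⟩
    rwa [image_id'] at h1
  have hcompl : (S ∪ (A \ interior A))ᶜ = O ∪ interior A := by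
    ext y
    simp only [mem_compl_iff, mem_union, Set.mem_sdiff, not_or, not_and, not_not]
    constructor
    · rintro ⟨h1, h2⟩
      by_cases h3 : IsImmE (p + d) p d m f y
      · exact Or.inl ⟨h1, h3⟩
      · exact Or.inr (h2 ⟨h1, h3⟩)
    · rintro (⟨h1, h2⟩ | h1)
      · exact ⟨h1, fun h3 => absurd h2 h3.2⟩
      · exact ⟨(interior_subset h1).1, fun _ => h1⟩
  have hS' : IsSmallSet (Cm p) (S ∪ (A \ interior A)) := by
    refine ⟨?_, ?_⟩
    · rw [← isOpen_compl_iff, hcompl]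
      exact hOo.union isOpen_interior
    · have h1 : SThin (Cm p) S := hS.2
      exact h1.union hCS
  have hpre := (Vale.Agent.P281.H383.Gen.compl p Y _ hS').2
  rw [hcompl] at hpre
  have hint : interior A = ∅ := by
    rw [← not_nonempty_iff_eq_empty]
    rintro ⟨y₂, hy₂⟩
    obtain ⟨y, -, h1, h2⟩ := hpre O (interior A) hOo isOpen_interior subset_rfl
      ⟨y₁, Or.inl ⟨hy₁, h⟩, hy₁, h⟩ ⟨y₂, Or.inr hy₂, hy₂⟩
    exact (interior_subset h2).2 h1.2
  have hfin : S ∪ {y | ¬ IsImmE (p + d) p d m f y} = S ∪ (A \ interior A) := by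
    rw [hint, sdiff_empty]
    ext y
    simp only [mem_union, mem_ofPred_eq, hA]
    by_cases hy : y ∈ S
    · simp [hy]
    · simp [hy]
  rw [hfin]
  exact hS'

end Vale.Agent.P281.H389.C
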