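import Vale.Agent.P281.H165.L.Sheet
import Vale.Agent.P281.H225.GradA

/-!
# P281, T-UL for the class C (helper389), block B34A: logarithmic derivatives on slices defined off a
null set (copy of helper165's `H165/L/Sheet.lean` with helper225's `lint_polyA_le`)
-/

open Set Filter Metric MeasureTheory Matrix
open scoped Topology ContDiff ComplexConjugate ComplexOrder ENNReal NNReal

noncomputable section

namespace Vale.Agent.P281.H389.C

open Vale.Agent.P281.H64.TK Vale.Agent.P272.K Vale.Agent.P281.H864.K Vale.Agent.P281.H485.K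
open Vale.Agent.P281.H485.U
open Vale.Agent.P281.H603.C (PolyInA TameInA)
open Vale.Agent.P281.H969.TL (IsPair enD volS EnStmt)
open Vale.Agent.P281.H165.L (weight_eq pair_loc slice_log)

variable {d : ℕ}

section
variable {E Γ : Type} [TopologicalSpace E] [Group Γ] [MulAction Γ E] [ContinuousConstSMul Γ E]
  {S : Sheets d E Γ}

/-- The energy of a slice. -/
theorem lint_logA {w : Fin S.N → Cm d → Matrix (Fin d) (Fin d) ℂ} (hw : Kah S w) {C : ℝ}
    {Z : Set E} {u : E → ℂ} {A M : E → ℝ} (hP : IsPair S w C Z u A M) (hd' : 0 < d) {K : ℝ}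
    (hK : 0 < K) {q : Cm d → E} {v₀ : Cm d} {r : ℝ} {AA : Set (Cm d)} (hA : IsOpen AA)
    (hAr : AA ⊆ ball v₀ r) (hq : PolyInA S q AA)
    (ht : TameInA S w K q AA) (hqZ : ∀ v ∈ AA, q v ∉ Z) {g : Cm d → ℂ}
    (hg : DifferentiableOn ℂ g (ball v₀ r))
    (hge : ∀ v ∈ AA, ∀ᶠ s in 𝓝 v, Complex.exp (g s) = u (q s)) :
    ∫⁻ v in AA, ENNReal.ofReal ((K * d)⁻¹ ^ (d - 1) *
      (∑ k, ‖fderiv ℂ g v (Pi.single k 1)‖ ^ 2) * (4⁻¹ / Real.cosh (g v - g v₀).re ^ 2)) ≤
      ∑ i, ∫⁻ z in S.P i ∩ {z | S.σ i z ∉ Z},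
        ENNReal.ofReal (enD (w i z) (fun z => u (S.σ i z)) ‖Complex.exp (g v₀)‖ z) := by
  classical
  have hd0 : (0 : ℝ) < d := by exact_mod_cast hd'
  have hmeas : ∀ i, MeasurableSet (S.P i ∩ {z | S.σ i z ∉ Z}) := by
    intro i
    have h1 : S.P i ∩ {z | S.σ i z ∉ Z} = S.P i ∩ {z | z ∈ ball (0 : Cm d) 3 ∧ S.σ i z ∉ Z} := by
      ext z
      constructor
      · rintro ⟨h1, h2⟩
        exact ⟨h1, P_subset3 S i h1, h2⟩
      · rintro ⟨h1, -, h2⟩
        exact ⟨h1, h2⟩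
    rw [h1]
    refine (meas_P S i).inter (IsOpen.measurableSet ?_)
    rw [isOpen_iff_mem_nhds]
    rintro z ⟨hz, hz'⟩
    filter_upwards [isOpen_ball.mem_nhds hz, hP.isOpen i z hz hz'] with z' h2 h3
    exact ⟨h2, h3⟩
  have hrw : ∀ i, ∫⁻ z in S.P i ∩ {z | S.σ i z ∉ Z},
        ENNReal.ofReal (enD (w i z) (fun z => u (S.σ i z)) ‖Complex.exp (g v₀)‖ z) =
      ∫⁻ z in S.P i, (if S.σ i z ∉ Z then
        ENNReal.ofReal (enD (w i z) (fun z => u (S.σ i z)) ‖Complex.exp (g v₀)‖ z) else 0) := by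
    intro i
    rw [← lintegral_indicator (hmeas i), ← lintegral_indicator (meas_P S i)]
    refine lintegral_congr fun z => ?_
    by_cases h1 : z ∈ S.P i
    · by_cases h2 : S.σ i z ∉ Z
      · rw [indicator_of_mem (show z ∈ S.P i ∩ {z | S.σ i z ∉ Z} from ⟨h1, h2⟩),
          indicator_of_mem h1, if_pos h2]
      · rw [indicator_of_notMem (fun h => h2 h.2), indicator_of_mem h1, if_neg h2]
    · rw [indicator_of_notMem (fun h => h1 h.1), indicator_of_notMem h1]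
  simp only [hrw]
  refine H225.lint_polyA_le hA.measurableSet hq (fun i z => if S.σ i z ∉ Z then
        ENNReal.ofReal (enD (w i z) (fun z => u (S.σ i z)) ‖Complex.exp (g v₀)‖ z) else 0) _ ?_
  intro i v hv z hz γ θ h1 h2 h3
  obtain ⟨hz', huq, hfd, -⟩ := pair_loc hP (hqZ v hv) hz h1 h2 h3
  rw [if_pos hz']
  have hge' : Complex.exp (g v) = u (q v) := (hge v hv).self_of_nhds
  set J := H64.TK.jac θ v with hJ
  have hc : 0 < (K * d)⁻¹ := by positivity
  -- tameness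
  have hT : ∀ ξ : Fin d → ℂ, (K * d)⁻¹ * ∑ k, ‖ξ k‖ ^ 2 ≤
      (star ξ ⬝ᵥ ((J.transpose * w i z * J.map conj) *ᵥ ξ)).re := by
    intro ξ
    have h4 := ht v hv i z hz γ θ h1 h2 h3 (star ξ)
    simp only [fderiv_jac] at h4
    rw [← hJ, form_eq] at h4
    simp only [star_star] at h4
    have h5 := sum_sq_le (star ξ : Cm d)
    have h6 : ∀ k, ‖(star ξ : Fin d → ℂ) k‖ = ‖ξ k‖ := fun k => by
      rw [Pi.star_apply, norm_star]
    simp only [h6] at h5
    calc (K * d)⁻¹ * ∑ k, ‖ξ k‖ ^ 2 ≤ (K * d)⁻¹ * (d * ‖(star ξ : Cm d)‖ ^ 2) := by gcongr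
      _ = K⁻¹ * ‖(star ξ : Cm d)‖ ^ 2 := by field_simp
      _ ≤ K⁻¹ * (K * (star ξ ⬝ᵥ ((J.transpose * w i z * J.map conj) *ᵥ ξ)).re) := by gcongr
      _ = _ := by field_simp
  -- invertibility
  have hJ0 : J.det ≠ 0 := by
    intro h0
    have h4 : (J.map conj).det = 0 := by
      have : (J.map conj).det = conj J.det := (RingHom.map_det (starRingEnd ℂ) J).symm
      rw [this, h0, map_zero]
    obtain ⟨ξ, hξ, hξ'⟩ := Matrix.exists_mulVec_eq_zero_iff.2 h4
    have h5 := hT ξ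
    rw [← Matrix.mulVec_mulVec, hξ', Matrix.mulVec_zero, dotProduct_zero, Complex.zero_re] at h5
    have h6 : 0 < ∑ k, ‖ξ k‖ ^ 2 := by
      obtain ⟨k, hk⟩ := Function.ne_iff.1 hξ
      refine Finset.sum_pos' (fun k _ => by positivity) ⟨k, Finset.mem_univ _, ?_⟩
      have : 0 < ‖ξ k‖ := norm_pos_iff.2 hk
      positivity
    have h7 := mul_pos hc h6
    linarith
  have hpd : (J.transpose * w i z * J.map conj).PosDef := by
    have h4 := hw.posDef i z hz
    have h5 : (J.map conj)ᴴ = J.transpose := by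
      ext a b
      simp [Matrix.conjTranspose_apply]
    have h6 : Function.Injective (J.map conj).mulVec := by
      rw [Matrix.mulVec_injective_iff_isUnit, Matrix.isUnit_iff_isUnit_det]
      have : (J.map conj).det = conj J.det := (RingHom.map_det (starRingEnd ℂ) J).symm
      rw [this]
      exact isUnit_iff_ne_zero.2 ((map_ne_zero _).2 hJ0)
    have h7 := h4.conjTranspose_mul_mul_same h6
    rwa [h5] at h7
  -- the gradients
  set a : Fin d → ℂ := fun k => dd k (fun z => u (S.σ i z)) z / u (S.σ i z) with ha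
  have hu0 : u (S.σ i z) ≠ 0 := (hP.hol i z hz hz').2
  have hgv : HasFDerivAt g (fderiv ℂ g v) v :=
    (hg.differentiableAt (isOpen_ball.mem_nhds (hAr hv))).hasFDerivAt
  have hexp : fderiv ℂ (fun x => u (q x)) v = u (S.σ i z) • fderiv ℂ g v := by
    rw [← (show (fun x => Complex.exp (g x)) =ᶠ[𝓝 v] fun x => u (q x) from hge v hv).fderiv_eq,
      hgv.cexp.fderiv, hge', huq]
  have hgr : a ᵥ* J = fun k => fderiv ℂ g v (Pi.single k 1) := by
    ext k
    have h4 : fderiv ℂ g v (Pi.single k 1) =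
        fderiv ℂ (fun x => u (q x)) v (Pi.single k 1) / u (S.σ i z) := by
      rw [hexp, _root_.smul_apply, smul_eq_mul, mul_div_cancel_left₀ _ hu0]
    rw [h4, hfd.fderiv, ContinuousLinearMap.comp_apply, clm_eq_sum, Finset.sum_div]
    simp only [Matrix.vecMul, dotProduct, ha, hJ, H64.TK.jac, Matrix.of_apply, dd]
    refine Finset.sum_congr rfl fun j _ => ?_
    ring
  have h8 := hd_ge hpd hc hT (a ᵥ* J)
  rw [hd_change hJ0, Complex.re_ofReal_mul, hgr] at h8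
  have h9 : enD (w i z) (fun z => u (S.σ i z)) ‖Complex.exp (g v₀)‖ z =
      4⁻¹ / Real.cosh (g v - g v₀).re ^ 2 * (hd (w i z) a a).re := by
    rw [← weight_eq, hge', huq]
    rfl
  rw [h9, ← ENNReal.ofReal_mul (by positivity)]
  refine ENNReal.ofReal_le_ofReal ?_
  have h10 : 0 ≤ 4⁻¹ / Real.cosh (g v - g v₀).re ^ 2 := by positivity
  calc (K * d)⁻¹ ^ (d - 1) * (∑ k, ‖fderiv ℂ g v (Pi.single k 1)‖ ^ 2) *
        (4⁻¹ / Real.cosh (g v - g v₀).re ^ 2)
      ≤ ‖J.det‖ ^ 2 * (hd (w i z) a a).re * (4⁻¹ / Real.cosh (g v - g v₀).re ^ 2) :=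
        mul_le_mul_of_nonneg_right h8 h10
    _ = _ := by ring

end

/-- **B34** for slices defined off a null set. -/
def SheetBoundAStmt : Prop :=
  ∀ (d : ℕ) (r K C v : ℝ), 0 < d → 0 < r → 0 < K → 0 ≤ C → ∃ B : ℝ, ∀ (E Γ : Type) [TopologicalSpace E]
    [T2Space E] [SimplyConnectedSpace E] [Group Γ] [MulAction Γ E] [ContinuousConstSMul Γ E]
    (S : H64.TK.Sheets d E Γ) (w : Fin S.N → Cm d → Matrix (Fin d) (Fin d) ℂ) (Z : Set E) (u : E → ℂ)
    (A M : E → ℝ), H64.TK.Kah S w → IsPair S w C Z u A M → volS S w ≤ v →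
    ∀ (q : Cm d → E) (H : Cm d → ℂ) (v₀ : Cm d) (AA : Set (Cm d)), IsOpen AA → AA ⊆ ball v₀ r →
    volume (ball v₀ r \ AA) = 0 → PolyInA S q AA → TameInA S w K q AA →
    (∀ v ∈ AA, q v ∉ Z) → DifferentiableOn ℂ H (ball v₀ r) → (∀ v ∈ ball v₀ r, H v ≠ 0) →
    (∀ v ∈ AA, ∀ᶠ s in 𝓝 v, H s = u (q s)) →
    ‖fderiv ℂ H v₀‖ ≤ B * ‖H v₀‖

/-- **B34A** -/
theorem sheetBoundA (hEn : EnStmt) : SheetBoundAStmt := by
  intro d r K C v hd hr hK hC
  have hd0 : (0 : ℝ) < d := by exact_mod_cast hd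
  obtain ⟨C₁, hC₁, hS⟩ := slice_log d hr
  set K' : ℝ := 4 * d * (K * d) ^ (d - 1) * (d * C * |v|) with hK'
  have hK'0 : 0 ≤ K' := by positivity
  refine ⟨C₁ * (K' + 1), ?_⟩
  intro E Γ _ _ _ _ _ _ S w Z u A M hw hP hv q H v₀ AA hA hAr hA0 hq ht hqZ hH hH0 hHu
  obtain ⟨g, hg, hge⟩ := H165.L.exists_log_ball hr
    (MF.analyticOnNhd_of_differentiableOn isOpen_ball hH) hH0
  have hm0 : v₀ ∈ ball v₀ r := mem_ball_self hr
  have hae : (AA : Set (Cm d)) =ᵐ[volume] (ball v₀ r : Set (Cm d)) :=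
    Filter.EventuallyLE.antisymm (Eventually.of_forall fun _ hx => hAr hx) (ae_le_set.2 hA0)
  have hgu : ∀ v ∈ AA, ∀ᶠ s in 𝓝 v, Complex.exp (g s) = u (q s) := by
    intro x hx
    filter_upwards [hHu x hx, isOpen_ball.mem_nhds (hAr hx)] with s h1 h2
    rw [hge s h2, h1]
  have h1 := lint_logA hw hP hd hK hA hAr hq ht hqZ hg hgu
  have h2 := h1.trans (hEn d E Γ S w C Z u A M hd hC hw hP ‖Complex.exp (g v₀)‖
    (norm_pos_iff.2 (Complex.exp_ne_zero _)))
  have h3 : d * C * volS S w ≤ d * C * |v| :=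
    mul_le_mul_of_nonneg_left (hv.trans (le_abs_self v)) (by positivity)
  have h4 := h2.trans (ENNReal.ofReal_le_ofReal h3)
  have h5 : ∫⁻ x in ball v₀ r, ENNReal.ofReal (‖fderiv ℂ g x‖ ^ 2 /
      Real.cosh (g x - g v₀).re ^ 2) ≤ ENNReal.ofReal K' := by
    have hk0 : 0 ≤ 4 * d * (K * d) ^ (d - 1) := by positivity
    have h6 : ∀ x, ENNReal.ofReal (‖fderiv ℂ g x‖ ^ 2 / Real.cosh (g x - g v₀).re ^ 2) ≤
        ENNReal.ofReal (4 * d * (K * d) ^ (d - 1)) * ENNReal.ofReal ((K * d)⁻¹ ^ (d - 1) *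
          (∑ k, ‖fderiv ℂ g x (Pi.single k 1)‖ ^ 2) * (4⁻¹ / Real.cosh (g x - g v₀).re ^ 2)) := by
      intro x
      rw [← ENNReal.ofReal_mul hk0]
      refine ENNReal.ofReal_le_ofReal ?_
      have h7 : ‖fderiv ℂ g x‖ ^ 2 ≤ d * ∑ k, ‖fderiv ℂ g x (Pi.single k 1)‖ ^ 2 := by
        have h8 : ‖fderiv ℂ g x‖ ≤ ∑ k, ‖fderiv ℂ g x (Pi.single k 1)‖ := by
          refine ContinuousLinearMap.opNorm_le_bound _ (Finset.sum_nonneg fun _ _ =>
            norm_nonneg _) fun ξ => ?_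
          rw [clm_eq_sum, Finset.sum_mul]
          refine (norm_sum_le _ _).trans (Finset.sum_le_sum fun k _ => ?_)
          rw [norm_mul]
          exact mul_le_mul_of_nonneg_left (norm_le_pi_norm ξ k) (norm_nonneg _)
        have h10 : (∑ k, ‖fderiv ℂ g x (Pi.single k 1)‖) ^ 2 ≤
            d * ∑ k, ‖fderiv ℂ g x (Pi.single k 1)‖ ^ 2 := by
          have h11 := sq_sum_le_card_mul_sum_sq (s := (Finset.univ : Finset (Fin d)))
            (f := fun k => ‖fderiv ℂ g x (Pi.single k 1)‖)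
          rwa [Finset.card_univ, Fintype.card_fin] at h11
        exact (pow_le_pow_left₀ (norm_nonneg _) h8 2).trans h10
      have h8 : 0 < Real.cosh (g x - g v₀).re ^ 2 := pow_pos (Real.cosh_pos _) 2
      have h9 : (K * d) ^ (d - 1) * (K * d)⁻¹ ^ (d - 1) = 1 := by
        rw [← mul_pow, mul_inv_cancel₀ (by positivity), one_pow]
      rw [div_le_iff₀ h8]
      calc ‖fderiv ℂ g x‖ ^ 2 ≤ d * ∑ k, ‖fderiv ℂ g x (Pi.single k 1)‖ ^ 2 := h7
        _ = ((K * d) ^ (d - 1) * (K * d)⁻¹ ^ (d - 1)) *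
            (d * ∑ k, ‖fderiv ℂ g x (Pi.single k 1)‖ ^ 2) := by rw [h9, one_mul]
        _ = _ := by
            field_simp
    refine (lintegral_mono fun x => h6 x).trans ?_
    rw [lintegral_const_mul' _ _ ENNReal.ofReal_ne_top, hK', ENNReal.ofReal_mul hk0,
      ← setLIntegral_congr hae]
    gcongr
  have h6 := hS g v₀ K' hK'0 hg h5
  have h7 : fderiv ℂ H v₀ = H v₀ • fderiv ℂ g v₀ := by
    have h8 : (fun x => Complex.exp (g x)) =ᶠ[𝓝 v₀] H := by
      filter_upwards [isOpen_ball.mem_nhds hm0] with x hx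
      exact hge x hx
    rw [← h8.fderiv_eq, ((hg.differentiableAt (isOpen_ball.mem_nhds hm0)).hasFDerivAt).cexp.fderiv,
      hge v₀ hm0]
  rw [h7, norm_smul, mul_comm]
  exact mul_le_mul_of_nonneg_right h6 (norm_nonneg _)

end Vale.Agent.P281.H389.C
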