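import Vale.Agent.P281.H83.MTame

/-!
# P281, T-UL for the class C (helper389): comparison of a metric of `X` with a metric of the compact
model `X₁`
-/

open scoped Manifold ContDiff Topology ComplexConjugate ComplexOrder
open Set Filter Metric

noncomputable section

namespace Vale.Agent.P281.H389.C

open Vale.Agent.P281 Vale.Agent.P272.K Vale.Agent.P281.H383.U
open Vale.Agent.P281.H83 (hf_chart Good good_near)

variable {n : ℕ}

theorem hf_upper {A : Cm n → Matrix (Fin n) (Fin n) ℂ} {c₀ : Cm n}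
    (hA : ∀ i j, ContinuousAt (fun c => A c i j) c₀) :
    ∃ M : ℝ, 0 ≤ M ∧ ∀ᶠ c in 𝓝 c₀, ∀ u : Cm n, (hf (A c) u).re ≤ M * ‖u‖ ^ 2 := by
  have h1 : ContinuousAt (fun c => ∑ i, ∑ j, ‖A c i j‖) c₀ :=
    tendsto_finsetSum _ fun i _ => tendsto_finsetSum _ fun j _ => (hA i j).norm
  refine ⟨∑ i, ∑ j, ‖A c₀ i j‖ + 1, by positivity, ?_⟩
  filter_upwards [h1.eventually_lt_const (show ∑ i, ∑ j, ‖A c₀ i j‖ < ∑ i, ∑ j, ‖A c₀ i j‖ + 1 by
    linarith)] with c hc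
  intro u
  have h2 : (hf (A c) u).re ≤ ∑ i, ∑ j, ‖A c i j‖ * ‖u‖ ^ 2 := by
    unfold hf
    rw [Complex.re_sum]
    refine Finset.sum_le_sum fun i _ => ?_
    rw [Complex.re_sum]
    refine Finset.sum_le_sum fun j _ => ?_
    refine (Complex.re_le_norm _).trans ?_
    rw [norm_mul, norm_mul, RCLike.norm_conj, mul_assoc, sq]
    gcongr
    · exact norm_le_pi_norm u i
    · exact norm_le_pi_norm u j
  refine h2.trans ?_
  simp only [← Finset.sum_mul]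
  gcongr

section
variable {X X₁ : Type} [TopologicalSpace X] [ChartedSpace (Cm n) X] [IsManifold 𝓘(ℂ, Cm n) ω X]
  [TopologicalSpace X₁] [ChartedSpace (Cm n) X₁] [IsManifold 𝓘(ℂ, Cm n) ω X₁]
  {u : X₁ → X} {w₀ : Chart n X → Cm n → Matrix (Fin n) (Fin n) ℂ}
  {w : Chart n X₁ → Cm n → Matrix (Fin n) (Fin n) ℂ}

/-- `u^* w₀ ≤ C w` at `x`. -/
def Cmp (u : X₁ → X) (w₀ : Chart n X → Cm n → Matrix (Fin n) (Fin n) ℂ)
    (w : Chart n X₁ → Cm n → Matrix (Fin n) (Fin n) ℂ) (C : ℝ) (x : X₁) : Prop :=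
  ∀ e₁ : Chart n X₁, At e₁ x → ∀ e : Chart n X, At e (u x) → ∀ η : Cm n,
    (hf (w₀ e (e (u x))) (fderiv ℂ (fun c => e (u (e₁.symm c))) (e₁ x) η)).re ≤
      C * (hf (w e₁ (e₁ x)) η).re

theorem hf_nonneg (hw : IsHermitian w) {x : X₁} {e : Chart n X₁} (he : At e x) (η : Cm n) :
    0 ≤ (hf (w e (e x)) η).re := by
  by_cases h0 : η = 0
  · subst h0
    simp [hf]
  · exact (hf_pos (hw.posDef e x he) h0).le

theorem Cmp.mono (hw : IsHermitian w) {C C' : ℝ} {x : X₁} (h : Cmp u w₀ w C x) (hC : C ≤ C') :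
    Cmp u w₀ w C' x := fun e₁ he₁ e he η =>
  (h e₁ he₁ e he η).trans (mul_le_mul_of_nonneg_right hC (hf_nonneg hw he₁ η))

theorem cmp_near (hu : ContMDiff 𝓘(ℂ, Cm n) 𝓘(ℂ, Cm n) ω u) (hw₀ : IsHermitian w₀)
    (hw : IsHermitian w) (x₁ : X₁) : ∃ C : ℝ, ∀ᶠ x in 𝓝 x₁, Cmp u w₀ w C x := by
  set ψ : Chart n X := chartAt (Cm n) (u x₁) with hψ
  have hψa : ψ ∈ atlas (Cm n) X := chart_mem_atlas _ _
  have hx₁ : u x₁ ∈ ψ.source := mem_chart_source _ _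
  have hFm : ∀ x, u x ∈ ψ.source → ContMDiffAt 𝓘(ℂ, Cm n) 𝓘(ℂ, Cm n) ω (fun x => ψ (u x)) x := by
    intro x hx
    have h1 : ContMDiffAt 𝓘(ℂ, Cm n) 𝓘(ℂ, Cm n) ω ψ (u x) :=
      contMDiffAt_of_mem_maximalAtlas (IsManifold.subset_maximalAtlas hψa) hx
    exact h1.comp x (hu x)
  have hsrc : ∀ᶠ x in 𝓝 x₁, u x ∈ ψ.source :=
    hu.continuous.continuousAt.eventually (ψ.open_source.eventually_mem hx₁)
  obtain ⟨K, hK, hKe⟩ := good_near (w := w) (F := fun x => ψ (u x)) hw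
    (hsrc.mono fun x hx => hFm x hx)
  obtain ⟨M, hM, hup⟩ := hf_upper (A := fun c => w₀ ψ c)
    (fun i j => (hw₀.smooth ψ (u x₁) ⟨hψa, hx₁⟩ i j).continuousAt)
  refine ⟨M * K, ?_⟩
  have hψc : ContinuousAt (fun x => ψ (u x)) x₁ :=
    ContinuousAt.comp (g := ψ) (ψ.continuousAt hx₁) hu.continuous.continuousAt
  filter_upwards [hsrc, hKe, hψc.eventually hup] with x hxs hxK hxM
  intro e₁ he₁ e he η
  have hψx : At ψ (u x) := ⟨hψa, hxs⟩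
  set L : Cm n →L[ℂ] Cm n := fderiv ℂ (fun c => e (u (e₁.symm c))) (e₁ x) with hL
  have hs : ContMDiffAt 𝓘(ℂ, Cm n) 𝓘(ℂ, Cm n) ω e₁.symm (e₁ x) :=
    contMDiffAt_symm_of_mem_maximalAtlas
      (IsManifold.subset_maximalAtlas he₁.1) (e₁.map_source he₁.2)
  have hus : ContMDiffAt 𝓘(ℂ, Cm n) 𝓘(ℂ, Cm n) ω (fun c => u (e₁.symm c)) (e₁ x) :=
    ContMDiffAt.comp (e₁ x) (g := u) (hu _) hs
  have heu : DifferentiableAt ℂ (fun c => e (u (e₁.symm c))) (e₁ x) := by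
    have h1 : ContMDiffAt 𝓘(ℂ, Cm n) 𝓘(ℂ, Cm n) ω e (u (e₁.symm (e₁ x))) := by
      rw [e₁.left_inv he₁.2]
      exact contMDiffAt_of_mem_maximalAtlas (IsManifold.subset_maximalAtlas he.1) he.2
    have h2 : ContMDiffAt 𝓘(ℂ, Cm n) 𝓘(ℂ, Cm n) ω (fun c => e (u (e₁.symm c))) (e₁ x) :=
      ContMDiffAt.comp (e₁ x) (g := e) h1 hus
    exact (contMDiffAt_iff_contDiffAt.1 h2).differentiableAt (by simp)
  have hch : fderiv ℂ (fun c => ψ (u (e₁.symm c))) (e₁ x) η =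
      fderiv ℂ (fun c => ψ (e.symm c)) (e (u x)) (L η) := by
    have h1 : DifferentiableAt ℂ (fun c => ψ (e.symm c)) (e (u (e₁.symm (e₁ x)))) := by
      rw [e₁.left_inv he₁.2]
      exact (INT.transition_contDiffAt he hψx).differentiableAt (by simp)
    have h2 : (fun c => ψ (u (e₁.symm c))) =ᶠ[𝓝 (e₁ x)]
        fun c => ψ (e.symm (e (u (e₁.symm c)))) := by
      have h4 : e.source ∈ 𝓝 (u (e₁.symm (e₁ x))) := by
        rw [e₁.left_inv he₁.2]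
        exact e.open_source.mem_nhds he.2
      filter_upwards [hus.continuousAt h4] with c hc
      rw [e.left_inv hc]
    have h6 : HasFDerivAt (fun c => ψ (e.symm (e (u (e₁.symm c)))))
        ((fderiv ℂ (fun c => ψ (e.symm c)) (e (u (e₁.symm (e₁ x))))).comp L) (e₁ x) :=
      HasFDerivAt.comp (g := fun c => ψ (e.symm c)) (e₁ x) h1.hasFDerivAt heu.hasFDerivAt
    rw [h2.fderiv_eq, h6.fderiv, ContinuousLinearMap.comp_apply, e₁.left_inv he₁.2]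
  rw [hf_chart hw₀ he hψx, ← hch]
  calc (hf (w₀ ψ (ψ (u x))) (fderiv ℂ (fun c => ψ (u (e₁.symm c))) (e₁ x) η)).re
      ≤ M * ‖fderiv ℂ (fun c => ψ (u (e₁.symm c))) (e₁ x) η‖ ^ 2 := hxM _
    _ ≤ M * (K * (hf (w e₁ (e₁ x)) η).re) := mul_le_mul_of_nonneg_left (hxK e₁ he₁ η) hM
    _ = M * K * (hf (w e₁ (e₁ x)) η).re := by ring

/-- `u^* w₀ ≤ C w` -/
theorem cmp_compact [CompactSpace X₁] (hu : ContMDiff 𝓘(ℂ, Cm n) 𝓘(ℂ, Cm n) ω u)
    (hw₀ : IsHermitian w₀) (hw : IsHermitian w) : ∃ C : ℝ, 0 ≤ C ∧ ∀ x, Cmp u w₀ w C x := by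
  choose k hk using fun x₁ : X₁ => cmp_near (w := w) hu hw₀ hw x₁
  obtain ⟨T, hT⟩ := CompactSpace.elim_nhds_subcover (fun x => {x' | Cmp u w₀ w (k x) x'}) hk
  refine ⟨∑ x ∈ T, |k x|, Finset.sum_nonneg fun _ _ => abs_nonneg _, fun x => ?_⟩
  have hx : x ∈ ⋃ y ∈ T, {x' | Cmp u w₀ w (k y) x'} := by
    rw [hT]
    trivial
  simp only [mem_iUnion, mem_setOf_eq, exists_prop] at hx
  obtain ⟨x₀, hx₀, hx⟩ := hx
  refine hx.mono hw ?_
  have h1 : |k x₀| ≤ ∑ x ∈ T, |k x| :=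
    Finset.single_le_sum (f := fun x => |k x|) (fun _ _ => abs_nonneg _) hx₀
  linarith [le_abs_self (k x₀)]

/-- the derivative of `e ∘ u ∘ Q` for a slice `Q` of `X₁` -/
theorem fderiv_slice {d : ℕ} (hu : ContMDiff 𝓘(ℂ, Cm n) 𝓘(ℂ, Cm n) ω u) {Q : Cm d → X₁} {z : Cm d}
    (hQ : ContMDiffAt 𝓘(ℂ, Cm d) 𝓘(ℂ, Cm n) ω Q z) {e₁ : Chart n X₁} (he₁ : At e₁ (Q z))
    {e : Chart n X} (he : At e (u (Q z))) (ξ : Cm d) :
    fderiv ℂ (fun z' => e (u (Q z'))) z ξ =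
      fderiv ℂ (fun c => e (u (e₁.symm c))) (e₁ (Q z)) (fderiv ℂ (fun z' => e₁ (Q z')) z ξ) := by
  have h1 : DifferentiableAt ℂ (fun c => e (u (e₁.symm c))) (e₁ (Q z)) := by
    have hs : ContMDiffAt 𝓘(ℂ, Cm n) 𝓘(ℂ, Cm n) ω e₁.symm (e₁ (Q z)) :=
      contMDiffAt_symm_of_mem_maximalAtlas
        (IsManifold.subset_maximalAtlas he₁.1) (e₁.map_source he₁.2)
    have hus : ContMDiffAt 𝓘(ℂ, Cm n) 𝓘(ℂ, Cm n) ω (fun c => u (e₁.symm c)) (e₁ (Q z)) :=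
      ContMDiffAt.comp (e₁ (Q z)) (g := u) (hu _) hs
    have h1 : ContMDiffAt 𝓘(ℂ, Cm n) 𝓘(ℂ, Cm n) ω e (u (e₁.symm (e₁ (Q z)))) := by
      rw [e₁.left_inv he₁.2]
      exact contMDiffAt_of_mem_maximalAtlas (IsManifold.subset_maximalAtlas he.1) he.2
    have h2 : ContMDiffAt 𝓘(ℂ, Cm n) 𝓘(ℂ, Cm n) ω (fun c => e (u (e₁.symm c))) (e₁ (Q z)) :=
      ContMDiffAt.comp (e₁ (Q z)) (g := e) h1 hus
    exact (contMDiffAt_iff_contDiffAt.1 h2).differentiableAt (by simp)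
  have h2 : DifferentiableAt ℂ (fun z' => e₁ (Q z')) z := by
    have h1 : ContMDiffAt 𝓘(ℂ, Cm n) 𝓘(ℂ, Cm n) ω e₁ (Q z) :=
      contMDiffAt_of_mem_maximalAtlas (IsManifold.subset_maximalAtlas he₁.1) he₁.2
    have h3 : ContMDiffAt 𝓘(ℂ, Cm d) 𝓘(ℂ, Cm n) ω (fun z' => e₁ (Q z')) z :=
      ContMDiffAt.comp z h1 hQ
    exact (contMDiffAt_iff_contDiffAt.1 h3).differentiableAt (by simp)
  have h3 : (fun z' => e (u (Q z'))) =ᶠ[𝓝 z] fun z' => e (u (e₁.symm (e₁ (Q z')))) := by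
    filter_upwards [hQ.continuousAt.eventually (e₁.open_source.eventually_mem he₁.2)] with z' hz'
    rw [e₁.left_inv hz']
  have h4 : HasFDerivAt (fun z' => e (u (e₁.symm (e₁ (Q z')))))
      ((fderiv ℂ (fun c => e (u (e₁.symm c))) (e₁ (Q z))).comp
        (fderiv ℂ (fun z' => e₁ (Q z')) z)) z :=
    HasFDerivAt.comp (g := fun c => e (u (e₁.symm c))) z h1.hasFDerivAt h2.hasFDerivAt
  rw [h3.fderiv_eq, h4.fderiv, ContinuousLinearMap.comp_apply]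

end

end Vale.Agent.P281.H389.C
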