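import Vale.Agent.P281.H83.TL.Bound
import Vale.Agent.P281.H225.C.Bound
import Vale.Agent.P281.H389.C.UNrm

/-!
# P281, T-UL for the class C (helper389): the pair on the fibres of the model `f₁`
-/

open Set Filter Metric MeasureTheory Vale.Agent.P281 Vale.Agent.P281.H713 Vale.Agent.P272.K
open Vale.Agent.P281.MF Vale.Agent.P281.ISO
open Vale.Agent.P281.H64.TK Vale.Agent.P281.H603.K Vale.Agent.P281.H864.K
open Vale.Agent.P281.H969.TL (IsUnitAt IsNrm IsPair volS)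
open Vale.Agent.P281.H83.TL (offF kk MX FX AX exists_eqs exists_loc comp_slice an_slice smooth_MX
  curv_MX)
open Vale.Agent.P281.H64.Gen (excSet)
open Vale.Agent.P281.H603.KodN (Mod0)
open scoped Topology ContDiff Manifold ComplexConjugate ComplexOrder

set_option linter.all false

noncomputable section

namespace Vale.Agent.P281.H389.C

section gen
variable {n d : ℕ} {X Y : Type} [TopologicalSpace X] [ChartedSpace (Cm n) X]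
  [IsManifold 𝓘(ℂ, Cm n) ω X] [TopologicalSpace Y]
  {E Γ : Type} [TopologicalSpace E] [Group Γ] [MulAction Γ E] [ContinuousConstSMul Γ E]
  {S : Sheets d E Γ} {f : X → Y}
  {𝒟 : Finset (Set X)} {Qu : E → X}

/-- the points off the divisors are dense -/
theorem freq_off [PreconnectedSpace E]
    (hinv : ∀ (γ : Γ) e, Qu (γ • e) = Qu e)
    (hQ : ∀ i, ∀ z ∈ ball (0 : Cm d) 3,
      ContMDiffAt 𝓘(ℂ, Cm d) 𝓘(ℂ, Cm n) ω (fun z => Qu (S.σ i z)) z)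
    (hD : ∀ D ∈ 𝒟, J.IsPrime (Cm n) D) (h0 : ∃ e, ∀ D ∈ 𝒟, Qu e ∉ D) (e : E) :
    ∃ᶠ e' in 𝓝 e, ∀ D ∈ 𝒟, Qu e' ∉ D := by
  classical
  set I : Set E := {e | ∀ᶠ e' in 𝓝 e, ¬ ∀ D ∈ 𝒟, Qu e' ∉ D} with hI
  have hIo : IsOpen I := by
    rw [isOpen_iff_mem_nhds]
    intro e he
    exact eventually_eventually_nhds.2 he
  have hIc : IsClosed I := by
    rw [← closure_subset_iff_isClosed]
    intro e he
    obtain ⟨γ, i, z, hz, rfl⟩ := S.cover e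
    have hz3 : z ∈ ball (0 : Cm d) 3 := Sh.mem3 hz
    have hmap : Filter.map (fun u => γ • S.σ i u) (𝓝 z) = 𝓝 (γ • S.σ i z) :=
      Sh.map_nhds_smul S γ i hz3
    have h1 : ∃ᶠ z' in 𝓝 z, γ • S.σ i z' ∈ I := by
      have h2 := mem_closure_iff_frequently.1 he
      rw [← hmap, Filter.frequently_map] at h2
      exact h2
    -- the local equations
    obtain ⟨eq, heq⟩ := exists_eqs hD (Qu (S.σ i z))
    have h3 : ∀ᶠ x in 𝓝 (Qu (S.σ i z)), ∀ D ∈ 𝒟, HolV (Cm n) (eq D) x ∧ (x ∈ D ↔ eq D x = 0) := by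
      rw [Filter.eventually_all_finset]
      intro D hDD
      obtain ⟨V, hV, hxV, h1, h2, -⟩ := heq D hDD
      filter_upwards [hV.mem_nhds hxV] with x hx using ⟨h1 x hx, h2 x hx⟩
    have h4 : ∀ᶠ z' in 𝓝 z, z' ∈ ball (0 : Cm d) 3 ∧ ∀ D ∈ 𝒟,
        HolV (Cm n) (eq D) (Qu (S.σ i z')) ∧ (Qu (S.σ i z') ∈ D ↔ eq D (Qu (S.σ i z')) = 0) :=
      (isOpen_ball.eventually_mem hz3).and ((hQ i z hz3).continuousAt.eventually h3)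
    obtain ⟨ε, hε, hball⟩ := Metric.eventually_nhds_iff_ball.1 h4
    set P : Cm d → ℂ := fun z' => ∏ D ∈ 𝒟, eq D (Qu (S.σ i z')) with hP
    have hPa : AnalyticOnNhd ℂ P (ball z ε) := by
      intro z' hz'
      refine Finset.analyticAt_fun_prod _ fun D hDD => ?_
      exact an_slice (hQ i z' (hball z' hz').1) ((hball z' hz').2 D hDD).1
    have hP0 : ∀ z' ∈ ball z ε, P z' = 0 ↔ ¬ ∀ D ∈ 𝒟, Qu (γ • S.σ i z') ∉ D := by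
      intro z' hz'
      rw [hP]
      simp only
      rw [Finset.prod_eq_zero_iff]
      push Not
      constructor
      · rintro ⟨D, hDD, h5⟩
        refine ⟨D, hDD, ?_⟩
        rw [hinv]
        exact ((hball z' hz').2 D hDD).2.2 h5
      · rintro ⟨D, hDD, h5⟩
        refine ⟨D, hDD, ?_⟩
        rw [hinv] at h5
        exact ((hball z' hz').2 D hDD).2.1 h5
    obtain ⟨z₁, hz₁I, hz₁⟩ := (h1.and_eventually (ball_mem_nhds z hε)).exists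
    have hmap₁ : Filter.map (fun u => γ • S.σ i u) (𝓝 z₁) = 𝓝 (γ • S.σ i z₁) :=
      Sh.map_nhds_smul S γ i (hball z₁ hz₁).1
    have h5 : P =ᶠ[𝓝 z₁] 0 := by
      have h6 : ∀ᶠ e' in 𝓝 (γ • S.σ i z₁), ¬ ∀ D ∈ 𝒟, Qu e' ∉ D := hz₁I
      rw [← hmap₁, Filter.eventually_map] at h6
      filter_upwards [h6, isOpen_ball.mem_nhds hz₁] with z' a b
      exact (hP0 z' b).2 a
    have h6 : EqOn P 0 (ball z ε) :=
      hPa.eqOn_zero_of_preconnected_of_eventuallyEq_zero (convex_ball z ε).isPreconnected hz₁ h5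
    show ∀ᶠ e' in 𝓝 (γ • S.σ i z), ¬ ∀ D ∈ 𝒟, Qu e' ∉ D
    rw [← hmap, Filter.eventually_map]
    filter_upwards [ball_mem_nhds z hε] with z' hz'
    exact (hP0 z' hz').1 (h6 hz')
  rcases isClopen_iff.1 ⟨hIc, hIo⟩ with h1 | h1
  · have h2 : e ∉ I := by rw [h1]; exact notMem_empty e
    have h3 : ¬ ∀ᶠ e' in 𝓝 e, ¬ ∀ D ∈ 𝒟, Qu e' ∉ D := h2
    exact h3
  · exfalso
    obtain ⟨e₀, he₀⟩ := h0
    have h2 : e₀ ∈ I := by rw [h1]; trivial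
    exact (show ∀ᶠ e' in 𝓝 e₀, ¬ ∀ D ∈ 𝒟, Qu e' ∉ D from h2).self_of_nhds he₀

variable {w₁ : Fin S.N → Cm d → Matrix (Fin d) (Fin d) ℂ}
  {w₀ : Chart n X → Cm n → Matrix (Fin n) (Fin n) ℂ}
  {a : Set X → ℤ} {C : Set X → ℝ} {N : Set X → X → ℝ} {U : X → ℂ} {y : Y}
  {C₀ : ℝ}

/-- **the pair**, for an invariant map `Qu : E → X` whose image is in a fibre of `f`. -/
theorem isPairG (hinv : ∀ (γ : Γ) e, Qu (γ • e) = Qu e) (hfy : ∀ e, f (Qu e) = y)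
    (hQ : ∀ i, ∀ z ∈ ball (0 : Cm d) 3,
      ContMDiffAt 𝓘(ℂ, Cm d) 𝓘(ℂ, Cm n) ω (fun z => Qu (S.σ i z)) z)
    (hfr : ∀ e, ∃ᶠ e' in 𝓝 e, ∀ D ∈ 𝒟, Qu e' ∉ D)
    (hcmp : ∀ i, ∀ z ∈ ball (0 : Cm d) 3, ∀ c : Chart n X, At c (Qu (S.σ i z)) → ∀ ξ : Cm d,
      (∑ j, ∑ k, w₀ c (c (Qu (S.σ i z))) j k * fderiv ℂ (fun z' => c (Qu (S.σ i z'))) z ξ j *
        conj (fderiv ℂ (fun z' => c (Qu (S.σ i z'))) z ξ k)).re ≤
      C₀ * (∑ j, ∑ k, w₁ i z j k * ξ j * conj (ξ k)).re)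
    (hw₀ : IsHermitian w₀) (hD : ∀ D ∈ 𝒟, J.IsPrime (Cm n) D)
    (hN : ∀ D ∈ 𝒟, IsNrm w₀ D (C D) (N D)) (hU : IsUnitAt (Cm n) f 𝒟 a y U)
    (hd : ∀ x, f x = y → ∃ᶠ x' in 𝓝 x, x' ∈ offF f 𝒟 y) :
    IsPair S w₁ ((∑ D ∈ 𝒟, (kk a D : ℝ) * max (C D) 0) * C₀)
      {e | ∃ D ∈ 𝒟, Qu e ∈ D} (fun e => U (Qu e)) (fun e => AX f 𝒟 a N U y (Qu e))
      (fun e => MX 𝒟 a N (Qu e)) := by
  have hoffc : ∀ x, (∀ D ∈ 𝒟, x ∉ D) → ∀ᶠ x' in 𝓝 x, ∀ D ∈ 𝒟, x' ∉ D := by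
    intro x hx
    rw [Filter.eventually_all_finset]
    exact fun D hDD => (hD D hDD).1.isOpen_compl.mem_nhds (hx D hDD)
  have hat : ∀ x : X, At (chartAt (Cm n) x) x := fun x =>
    ⟨chart_mem_atlas _ _, mem_chart_source _ _⟩
  refine
    { inv := ?_
      nonneg := ?_
      smooth := ?_
      isOpen := ?_
      dense := ?_
      hol := ?_
      eq := ?_
      curv := ?_ }
  · intro γ e
    have h1 : Qu (γ • e) = Qu e := hinv γ e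
    refine ⟨congrArg U h1, congrArg (AX f 𝒟 a N U y) h1, congrArg (MX 𝒟 a N) h1, ?_⟩
    show (∃ D ∈ 𝒟, Qu (γ • e) ∈ D) ↔ ∃ D ∈ 𝒟, Qu e ∈ D
    rw [h1]
  · intro e
    refine ⟨?_, Finset.prod_nonneg fun D hDD => pow_nonneg ((hN D hDD).nonneg _) _⟩
    obtain ⟨G, -, h1, h2⟩ := exists_loc hD hN hU hd (hfy e) (hat (Qu e))
    show 0 ≤ AX f 𝒟 a N U y (Qu e)
    rw [(h2.self_of_nhds (hfy e)).1]
    exact h1 _
  · intro i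
    refine ⟨fun z hz => ContDiffAt.contDiffWithinAt ?_,
      fun z hz => (smooth_MX hD hN (hQ i z hz)).contDiffWithinAt⟩
    obtain ⟨G, hG, h1, h2⟩ := exists_loc hD hN hU hd (hfy (S.σ i z)) (hat (Qu (S.σ i z)))
    refine (comp_slice (hQ i z hz) (hat _) hG).congr_of_eventuallyEq ?_
    filter_upwards [(hQ i z hz).continuousAt.eventually h2] with z' hz'
    exact (hz' (hfy _)).1
  · intro i z hz hoff
    have h1 : ∀ D ∈ 𝒟, Qu (S.σ i z) ∉ D := fun D hDD h => hoff ⟨D, hDD, h⟩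
    filter_upwards [(hQ i z hz).continuousAt.eventually (hoffc _ h1)] with z' hz'
    rintro ⟨D, hDD, h⟩
    exact hz' D hDD h
  · intro i z hz
    have h1 := hfr (S.σ i z)
    rw [← S.map_nhds i z hz, Filter.frequently_map] at h1
    refine h1.mono ?_
    rintro z' h2 ⟨D, hDD, h⟩
    exact h2 D hDD h
  · intro i z hz hoff
    have h1 : ∀ D ∈ 𝒟, Qu (S.σ i z) ∉ D := fun D hDD h => hoff ⟨D, hDD, h⟩
    obtain ⟨e, he⟩ := exists_eqs hD (Qu (S.σ i z))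
    obtain ⟨h, hh, hh0, hev⟩ := hU _ (hfy _) e he
    have he0 : ∀ D ∈ 𝒟, e D (Qu (S.σ i z)) ≠ 0 := by
      intro D hDD h0
      obtain ⟨V, -, hxV, -, h2, -⟩ := he D hDD
      exact h1 D hDD ((h2 _ hxV).2 h0)
    have hea : ∀ D ∈ 𝒟, AnalyticAt ℂ (fun z' => e D (Qu (S.σ i z'))) z := by
      intro D hDD
      obtain ⟨V, -, hxV, h2, -⟩ := he D hDD
      exact an_slice (hQ i z hz) (h2 _ hxV)
    have h2 : (fun z' => U (Qu (S.σ i z'))) =ᶠ[𝓝 z] fun z' =>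
        h (Qu (S.σ i z')) * ∏ D ∈ 𝒟, e D (Qu (S.σ i z')) ^ a D := by
      filter_upwards [(hQ i z hz).continuousAt.eventually hev,
        (hQ i z hz).continuousAt.eventually (hoffc _ h1)] with z' h3 h4
      exact h3 (hfy _) h4
    have h3 : AnalyticAt ℂ (fun z' =>
        h (Qu (S.σ i z')) * ∏ D ∈ 𝒟, e D (Qu (S.σ i z')) ^ a D) z := by
      refine (an_slice (hQ i z hz) hh).mul (Finset.analyticAt_fun_prod _ fun D hDD => ?_)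
      exact (hea D hDD).zpow (he0 D hDD)
    refine ⟨h3.congr h2.symm, ?_⟩
    show U (Qu (S.σ i z)) ≠ 0
    have h4 := h2.self_of_nhds
    simp only at h4
    rw [h4]
    exact mul_ne_zero hh0 (Finset.prod_ne_zero_iff.2 fun D hDD => zpow_ne_zero _ (he0 D hDD))
  · intro e he
    have h1 : ∀ D ∈ 𝒟, Qu e ∉ D := fun D hDD h => he ⟨D, hDD, h⟩
    refine ⟨Finset.prod_pos fun D hDD => pow_pos (lt_of_le_of_ne ((hN D hDD).nonneg _)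
      fun h0 => h1 D hDD (((hN D hDD).zero _).1 h0.symm)) _, ?_⟩
    obtain ⟨G, -, -, h2⟩ := exists_loc hD hN hU hd (hfy e) (hat (Qu e))
    obtain ⟨h3, h4⟩ := h2.self_of_nhds (hfy e)
    show AX f 𝒟 a N U y (Qu e) = ‖U (Qu e)‖ ^ 2 * MX 𝒟 a N (Qu e)
    rw [h3, ← h4 ⟨hfy e, h1⟩]
    rfl
  · intro i z hz hoff ξ
    have h1 : ∀ D ∈ 𝒟, Qu (S.σ i z) ∉ D := fun D hDD h => hoff ⟨D, hDD, h⟩
    have hc := hat (Qu (S.σ i z))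
    have h2 := curv_MX (a := a) hD hN (hQ i z hz) h1 hc (hw₀.posDef _ _ hc).posSemidef ξ
    refine le_trans ?_ h2
    rw [neg_le_neg_iff, mul_assoc]
    exact mul_le_mul_of_nonneg_left (hcmp i z hz _ hc ξ)
      (Finset.sum_nonneg fun D _ => mul_nonneg (Nat.cast_nonneg _) (le_max_right _ _))

end gen

section model
variable {p d : ℕ} {Z Y Z₁ Y₁ : Type} [TopologicalSpace Z] [T2Space Z]
  [ChartedSpace (Cm (p + d)) Z] [IsManifold 𝓘(ℂ, Cm (p + d)) ω Z] [TopologicalSpace Y]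
  [T2Space Y] [ChartedSpace (Cm p) Y] [IsManifold 𝓘(ℂ, Cm p) ω Y] [TopologicalSpace Z₁]
  [T2Space Z₁] [ChartedSpace (Cm (p + d)) Z₁] [IsManifold 𝓘(ℂ, Cm (p + d)) ω Z₁]
  [TopologicalSpace Y₁] [T2Space Y₁] [ChartedSpace (Cm p) Y₁] [IsManifold 𝓘(ℂ, Cm p) ω Y₁]
  {E Γ E₁ Γ₁ : Type} [TopologicalSpace E] [Group Γ] [MulAction Γ E] [ContinuousConstSMul Γ E]
  [TopologicalSpace E₁] [ConnectedSpace E₁] [Group Γ₁] [MulAction Γ₁ E₁]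
  [ContinuousConstSMul Γ₁ E₁]
  {f : Z → Y} {f₁ : Z₁ → Y₁} {u : Z₁ → Z} {v : Y₁ → Y} {𝓕 : Fam p d E Γ}
  {Q : Cm p → E → Z} {χ : OpenPartialHomeomorph Y (Cm p)} {𝓕₁ : Fam p d E₁ Γ₁}
  {Q₁ : Cm p → E₁ → Z₁} {χ₁ : OpenPartialHomeomorph Y₁ (Cm p)} {t t₁ : Cm p} {V : E₁ → E}
  {ρ : Γ₁ ≃* Γ}
  {w₀ : Chart (p + d) Z → Cm (p + d) → Matrix (Fin (p + d)) (Fin (p + d)) ℂ}
  {w : Chart (p + d) Z₁ → Cm (p + d) → Matrix (Fin (p + d)) (Fin (p + d)) ℂ}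
  {𝒟 : Finset (Set Z)} {a : Set Z → ℤ} {C : Set Z → ℝ} {N : Set Z → Z → ℝ} {U : Z → ℂ} {y : Y}
  {C₀ : ℝ}

/-- **the pair** on the fibre of `f₁` -/
theorem isPairU (h : H225.C.Ds f f₁ u v 𝓕 Q χ 𝓕₁ Q₁ χ₁ t t₁ V ρ)
    (hu : ContMDiff 𝓘(ℂ, Cm (p + d)) 𝓘(ℂ, Cm (p + d)) ω u)
    {W : Fin 𝓕₁.N → Cm p × Cm d → Matrix (Fin p ⊕ Fin d) (Fin p ⊕ Fin d) ℂ}
    (hW : IsPull w 𝓕₁ Q₁ W) (hy : χ.symm t = y) (hw₀ : IsHermitian w₀)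
    (hcmp : ∀ x, Cmp u w₀ w C₀ x)
    (hD : ∀ D ∈ 𝒟, J.IsPrime (Cm (p + d)) D)
    (hN : ∀ D ∈ 𝒟, IsNrm w₀ D (C D) (N D)) (hU : IsUnitAt (Cm (p + d)) f 𝒟 a y U)
    (hd : ∀ x, f x = y → ∃ᶠ x' in 𝓝 x, x' ∈ offF f 𝒟 y) :
    IsPair (𝓕₁.at t₁ h.ht₁) (fibW W t₁) ((∑ D ∈ 𝒟, (kk a D : ℝ) * max (C D) 0) * C₀)
      {e | ∃ D ∈ 𝒟, u (Q₁ t₁ e) ∈ D} (fun e => U (u (Q₁ t₁ e)))
      (fun e => AX f 𝒟 a N U y (u (Q₁ t₁ e))) (fun e => MX 𝒟 a N (u (Q₁ t₁ e))) := by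
  have hinv : ∀ (γ : Γ₁) e, u (Q₁ t₁ (γ • e)) = u (Q₁ t₁ e) := fun γ e => by
    rw [H603.C.q_smul_of h.M₁ h.ht₁]
  have hfy : ∀ e, f (u (Q₁ t₁ e)) = y := fun e => by
    rw [h.hcomm, h.M₁.fib t₁ h.ht₁, h.base, hy]
  have hQ₁ : ∀ i, ∀ z ∈ ball (0 : Cm d) 3,
      ContMDiffAt 𝓘(ℂ, Cm d) 𝓘(ℂ, Cm (p + d)) ω (fun z => Q₁ t₁ (𝓕₁.σ i t₁ z)) z :=
    fun i z hz => contMDiffAt_slice (h.M₁.hol i t₁ h.ht₁ z hz)
  have hQ : ∀ i, ∀ z ∈ ball (0 : Cm d) 3,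
      ContMDiffAt 𝓘(ℂ, Cm d) 𝓘(ℂ, Cm (p + d)) ω (fun z => u (Q₁ t₁ (𝓕₁.σ i t₁ z))) z :=
    fun i z hz => ContMDiffAt.comp z (g := u) (hu _) (hQ₁ i z hz)
  have h0 : ∃ e, ∀ D ∈ 𝒟, u (Q₁ t₁ e) ∉ D := by
    obtain ⟨e₀⟩ : Nonempty E₁ := inferInstance
    obtain ⟨x', hx', hoff⟩ := (hd _ (hfy e₀)).exists
    obtain ⟨x₁, rfl⟩ := h.mu.surj x'
    have h1 : v (χ₁.symm t₁) = v (f₁ x₁) := by
      rw [h.base, ← h.hcomm, hx', hy]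
    have h2 : χ₁.symm t₁ = f₁ x₁ := h.mv.inj _ _ h1 h.off
    have ht₁ := h.M₁.sub h.ht₁
    have h3 : χ₁ (f₁ x₁) = t₁ := by rw [← h2, χ₁.right_inv ht₁]
    obtain ⟨e, he⟩ := h.M₁.surj x₁ (by rw [← h2]; exact χ₁.map_target ht₁)
      (by rw [h3]; exact h.ht₁)
    rw [h3] at he
    exact ⟨e, fun D hDD => by rw [he]; exact hoff D hDD⟩
  refine isPairG (S := 𝓕₁.at t₁ h.ht₁) (w₁ := fibW W t₁) (w₀ := w₀)
    (Qu := fun e => u (Q₁ t₁ e)) hinv hfy hQ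
    (freq_off (S := 𝓕₁.at t₁ h.ht₁) (Qu := fun e => u (Q₁ t₁ e)) hinv hQ hD h0) ?_ hw₀ hD hN hU hd
  intro i z hz c hc ξ
  set c₁ : Chart (p + d) Z₁ := chartAt (Cm (p + d)) (Q₁ t₁ (𝓕₁.σ i t₁ z)) with hc₁d
  have hc₁ : At c₁ (Q₁ t₁ (𝓕₁.σ i t₁ z)) := ⟨chart_mem_atlas _ _, mem_chart_source _ _⟩
  have h1 := hcmp (Q₁ t₁ (𝓕₁.σ i t₁ z)) c₁ hc₁ c hc
    (fderiv ℂ (fun z' => c₁ (Q₁ t₁ (𝓕₁.σ i t₁ z'))) z ξ)
  rw [← fderiv_slice hu (hQ₁ i z hz) hc₁ hc ξ] at h1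
  refine h1.trans (le_of_eq ?_)
  congr 2
  have h3 := H969.K.fibW_eq h.M₁ hW h.ht₁ hz hc₁
  have h4 := quad_pull (w c₁ (c₁ (Q₁ t₁ (𝓕₁.σ i t₁ z)))) (H969.K.jacF 𝓕₁ Q₁ c₁ i t₁ z) ξ
  have h5 : ∀ b, (∑ j, H969.K.jacF 𝓕₁ Q₁ c₁ i t₁ z b j * ξ j) =
      fderiv ℂ (fun u => c₁ (Q₁ t₁ (𝓕₁.σ i t₁ u))) z ξ b := by
    intro b
    have h6 : ξ = ∑ j, (ξ j) • (Pi.single j (1 : ℂ) : Cm d) := by
      funext l
      simp [Finset.sum_apply, Pi.single_apply]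
    conv_rhs => rw [h6]
    rw [map_sum, Finset.sum_apply]
    refine Finset.sum_congr rfl fun j _ => ?_
    rw [map_smul, Pi.smul_apply, smul_eq_mul, mul_comm]
    rfl
  simp only [h5] at h4
  rw [h3]
  exact h4

end model

end Vale.Agent.P281.H389.C
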